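import Vale.Agent.P022D.PA.Defs

namespace Vale.Agent.P022F.PA
export Vale.Agent.P022D.PA (
  SMU FG TI0 REX COL LEN0 DSC Gd END L LIM Jb REG TI1 J1 DIAG INJ Cv CHN TIB LEN Base Lmap
  Soc ETA LIMI EXA KRU ETL ln Tight BOX Cov Null Gen)
end Vale.Agent.P022F.PA

namespace Vale.Agent.P022F.PA.Base
export Vale.Agent.P022D.PA.Base (
  mk fin cpl)
end Vale.Agent.P022F.PA.Base

namespace Vale.Agent.P022F.PA.Gd
export Vale.Agent.P022D.PA.Gd (
  fib soc gen mk fin)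
end Vale.Agent.P022F.PA.Gd

namespace Vale.Agent.P022F.PA.Cov
export Vale.Agent.P022D.PA.Cov (
  rel gen fin free mk)
end Vale.Agent.P022F.PA.Cov
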